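import Mathlib

/-!
# P237, piece KAPPA: Petty's constant is at most `2 ^ n`

With `kap m = sqrt(pi) ^ m / Gamma (m / 2 + 1)`, the volume of the unit ball of `ℝ ^ m`, we prove
`kap (n - 1) ^ n ≤ 2 ^ n * kap n ^ (n - 2)` for every `n ≥ 2` (`kappa_real`), and the same
inequality for the volumes themselves (`kappa_ball`).

Proof.  Put `g m = Gamma (m / 2 + 1)`.  The claim is `sqrt(pi) ^ n * g n ^ (n - 2) ≤
2 ^ n * g (n - 1) ^ n`.  We use the recursion `g (m + 2) = (m / 2 + 1) g m`, the values `g 0 = 1`,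
`g 1 = sqrt(pi) / 2`, the duplication formula `2 ^ (m + 1) g m g (m + 1) = sqrt(pi) (m + 1)!`
(induction), the log-convexity `g (m + 1) ^ 2 ≤ g m g (m + 2)`, and the elementary inequality
`(pi (N + 1) / 2) ^ (N - 1) ≤ (N !) ^ 2` for `N ≥ 4` (induction with Bernoulli's inequality).
The cases `n = 2` (equality) and `n = 3` (`pi ^ 2 ≤ 32 / 3`) are checked by hand.
-/

namespace Vale.Agent.Lib.P237.H4

open MeasureTheory

/-- `g m = Gamma (m / 2 + 1)`. -/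
noncomputable def g (m : ℕ) : ℝ := Real.Gamma ((m : ℝ) / 2 + 1)

theorem g_pos (m : ℕ) : 0 < g m := Real.Gamma_pos_of_pos (by positivity)

theorem g_zero : g 0 = 1 := by
  simp [g]

theorem g_one : g 1 = Real.sqrt Real.pi / 2 := by
  have h : g 1 = Real.Gamma (1 / 2 + 1) := by simp [g]
  rw [h, Real.Gamma_add_one (by norm_num), Real.Gamma_one_half_eq]
  ring

theorem g_add_two (m : ℕ) : g (m + 2) = ((m : ℝ) / 2 + 1) * g m := by
  have h : (((m + 2 : ℕ) : ℝ)) / 2 + 1 = ((m : ℝ) / 2 + 1) + 1 := by push_cast; ring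
  have hne : (m : ℝ) / 2 + 1 ≠ 0 := by positivity
  unfold g
  rw [h, Real.Gamma_add_one hne]

/-- Log-convexity of the Gamma function at three consecutive half-integers. -/
theorem g_mid (m : ℕ) : g (m + 1) ^ 2 ≤ g m * g (m + 2) := by
  have hs : (0 : ℝ) < (m : ℝ) / 2 + 1 := by positivity
  have ht : (0 : ℝ) < ((m + 2 : ℕ) : ℝ) / 2 + 1 := by positivity
  have h := Real.Gamma_mul_add_mul_le_rpow_Gamma_mul_rpow_Gamma hs ht (a := 1 / 2) (b := 1 / 2)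
    (by norm_num) (by norm_num) (by norm_num)
  have e : (1 / 2 : ℝ) * ((m : ℝ) / 2 + 1) + 1 / 2 * (((m + 2 : ℕ) : ℝ) / 2 + 1)
      = ((m + 1 : ℕ) : ℝ) / 2 + 1 := by push_cast; ring
  rw [e, ← Real.sqrt_eq_rpow, ← Real.sqrt_eq_rpow] at h
  have h' : g (m + 1) ≤ Real.sqrt (g m) * Real.sqrt (g (m + 2)) := h
  calc g (m + 1) ^ 2 ≤ (Real.sqrt (g m) * Real.sqrt (g (m + 2))) ^ 2 :=
        pow_le_pow_left₀ (g_pos _).le h' 2
    _ = g m * g (m + 2) := by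
        rw [mul_pow, Real.sq_sqrt (g_pos _).le, Real.sq_sqrt (g_pos _).le]

/-- The duplication formula at half-integers. -/
theorem g_dup (m : ℕ) :
    2 ^ (m + 1) * (g m * g (m + 1)) = Real.sqrt Real.pi * ((m + 1).factorial : ℝ) := by
  induction m with
  | zero =>
    rw [g_zero, g_one]
    simp
    ring
  | succ k ih =>
    have e : g (k + 1 + 1) = ((k : ℝ) / 2 + 1) * g k := g_add_two k
    have hf : (((k + 1 + 1).factorial : ℕ) : ℝ) = ((k : ℝ) + 2) * ((k + 1).factorial : ℝ) := by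
      rw [Nat.factorial_succ (k + 1)]
      push_cast
      ring
    have e2 : (2 : ℝ) ^ (k + 1 + 1) * (g (k + 1) * (((k : ℝ) / 2 + 1) * g k))
        = ((k : ℝ) + 2) * (2 ^ (k + 1) * (g k * g (k + 1))) := by ring
    rw [e, hf, e2, ih]
    ring

/-- `(pi (N + 1) / 2) ^ (N - 1) ≤ (N !) ^ 2` for `N = k + 4`. -/
theorem pow_le_fact_sq (k : ℕ) :
    (Real.pi * ((k : ℝ) + 5) / 2) ^ (k + 3) ≤ ((k + 4).factorial : ℝ) ^ 2 := by
  have hpi := Real.pi_lt_d2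
  have hpi0 := Real.pi_pos
  induction k with
  | zero =>
    have h1 : Real.pi * (((0 : ℕ) : ℝ) + 5) / 2 ≤ 7.875 := by
      push_cast
      linarith
    have h2 : (Real.pi * (((0 : ℕ) : ℝ) + 5) / 2) ^ 3 ≤ (7.875 : ℝ) ^ 3 :=
      pow_le_pow_left₀ (by positivity) h1 3
    have h3 : (((0 + 4).factorial : ℕ) : ℝ) = 24 := by norm_num [Nat.factorial]
    rw [h3]
    refine h2.trans ?_
    norm_num
  | succ k ih =>
    have hk6 : (0 : ℝ) < (k : ℝ) + 6 := by positivity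
    have hF : (((k + 1 + 4).factorial : ℕ) : ℝ) = ((k : ℝ) + 5) * ((k + 4).factorial : ℝ) := by
      rw [show k + 1 + 4 = (k + 4) + 1 by ring, Nat.factorial_succ]
      push_cast
      ring
    have hF0 : (0 : ℝ) ≤ ((k + 4).factorial : ℝ) ^ 2 := by positivity
    have hy : Real.pi * (((k + 1 : ℕ) : ℝ) + 5) / 2 = Real.pi * ((k : ℝ) + 6) / 2 := by
      push_cast
      ring
    rw [hy, hF, mul_pow]
    have hy0 : 0 < Real.pi * ((k : ℝ) + 6) / 2 := by positivity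
    have hB : 1 + ((k + 3 : ℕ) : ℝ) * (-(1 / ((k : ℝ) + 6))) ≤ (1 + -(1 / ((k : ℝ) + 6))) ^ (k + 3) :=
      one_add_mul_le_pow (by
        have : 1 / ((k : ℝ) + 6) ≤ 1 := by
          rw [div_le_one hk6]
          linarith
        linarith) (k + 3)
    have e : 1 + ((k + 3 : ℕ) : ℝ) * (-(1 / ((k : ℝ) + 6))) = 3 / ((k : ℝ) + 6) := by
      push_cast
      field_simp
      ring
    rw [e] at hB
    have hxy : Real.pi * ((k : ℝ) + 5) / 2
        = Real.pi * ((k : ℝ) + 6) / 2 * (1 + -(1 / ((k : ℝ) + 6))) := by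
      field_simp
      ring
    have h3 : 3 * (Real.pi * ((k : ℝ) + 6) / 2) ^ (k + 3)
        ≤ ((k : ℝ) + 6) * (Real.pi * ((k : ℝ) + 5) / 2) ^ (k + 3) := by
      rw [hxy, mul_pow]
      have hyk : 0 ≤ ((k : ℝ) + 6) * (Real.pi * ((k : ℝ) + 6) / 2) ^ (k + 3) := by positivity
      calc 3 * (Real.pi * ((k : ℝ) + 6) / 2) ^ (k + 3)
          = ((k : ℝ) + 6) * (Real.pi * ((k : ℝ) + 6) / 2) ^ (k + 3) * (3 / ((k : ℝ) + 6)) := by
            field_simp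
        _ ≤ ((k : ℝ) + 6) * (Real.pi * ((k : ℝ) + 6) / 2) ^ (k + 3)
              * (1 + -(1 / ((k : ℝ) + 6))) ^ (k + 3) := mul_le_mul_of_nonneg_left hB hyk
        _ = ((k : ℝ) + 6) * ((Real.pi * ((k : ℝ) + 6) / 2) ^ (k + 3)
              * (1 + -(1 / ((k : ℝ) + 6))) ^ (k + 3)) := by ring
    have h4 : Real.pi * ((k : ℝ) + 6) / 2 * ((k : ℝ) + 6) ≤ 3 * ((k : ℝ) + 5) ^ 2 := by
      nlinarith [mul_nonneg (sub_nonneg.mpr hpi.le) (sq_nonneg ((k : ℝ) + 6)),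
        (Nat.cast_nonneg k : (0 : ℝ) ≤ k), sq_nonneg (k : ℝ)]
    have e2 : (Real.pi * ((k : ℝ) + 6) / 2) ^ (k + 1 + 3)
        = Real.pi * ((k : ℝ) + 6) / 2 * (Real.pi * ((k : ℝ) + 6) / 2) ^ (k + 3) := by ring
    rw [e2]
    have h5 : 3 * (Real.pi * ((k : ℝ) + 6) / 2 * (Real.pi * ((k : ℝ) + 6) / 2) ^ (k + 3))
        ≤ 3 * (((k : ℝ) + 5) ^ 2 * ((k + 4).factorial : ℝ) ^ 2) := by
      calc 3 * (Real.pi * ((k : ℝ) + 6) / 2 * (Real.pi * ((k : ℝ) + 6) / 2) ^ (k + 3))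
          = Real.pi * ((k : ℝ) + 6) / 2 * (3 * (Real.pi * ((k : ℝ) + 6) / 2) ^ (k + 3)) := by ring
        _ ≤ Real.pi * ((k : ℝ) + 6) / 2
              * (((k : ℝ) + 6) * (Real.pi * ((k : ℝ) + 5) / 2) ^ (k + 3)) :=
            mul_le_mul_of_nonneg_left h3 hy0.le
        _ ≤ Real.pi * ((k : ℝ) + 6) / 2 * (((k : ℝ) + 6) * ((k + 4).factorial : ℝ) ^ 2) :=
            mul_le_mul_of_nonneg_left (mul_le_mul_of_nonneg_left ih hk6.le) hy0.le
        _ = Real.pi * ((k : ℝ) + 6) / 2 * ((k : ℝ) + 6) * ((k + 4).factorial : ℝ) ^ 2 := by ring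
        _ ≤ 3 * ((k : ℝ) + 5) ^ 2 * ((k + 4).factorial : ℝ) ^ 2 :=
            mul_le_mul_of_nonneg_right h4 hF0
        _ = 3 * (((k : ℝ) + 5) ^ 2 * ((k + 4).factorial : ℝ) ^ 2) := by ring
    linarith

/-- The algebraic core: from the log-convexity bound `h1`, the duplication formula `h2` and the
numeric inequality `h3` to the main inequality. -/
theorem core (m : ℕ) (s a b F c : ℝ) (hs : 0 < s) (ha : 0 < a) (hb : 0 < b) (hF : 0 ≤ F)
    (h1 : b ^ 2 ≤ c * a ^ 2) (h2 : 2 ^ (m + 2) * (a * b) = s * F)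
    (h3 : (s ^ 2 * c) ^ (m + 1) ≤ F ^ 2) :
    s ^ (m + 2) * b ^ m ≤ 2 ^ (m + 2) * a ^ (m + 2) := by
  have hA : (s ^ (m + 1) * b ^ (m + 1)) ^ 2 ≤ (F * a ^ (m + 1)) ^ 2 := by
    calc (s ^ (m + 1) * b ^ (m + 1)) ^ 2 = (s ^ 2 * b ^ 2) ^ (m + 1) := by ring
      _ ≤ (s ^ 2 * (c * a ^ 2)) ^ (m + 1) :=
          pow_le_pow_left₀ (by positivity) (mul_le_mul_of_nonneg_left h1 (by positivity)) _
      _ = (s ^ 2 * c) ^ (m + 1) * (a ^ (m + 1)) ^ 2 := by ring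
      _ ≤ F ^ 2 * (a ^ (m + 1)) ^ 2 := mul_le_mul_of_nonneg_right h3 (by positivity)
      _ = (F * a ^ (m + 1)) ^ 2 := by ring
  have hB : s ^ (m + 1) * b ^ (m + 1) ≤ F * a ^ (m + 1) :=
    le_of_pow_le_pow_left₀ two_ne_zero (by positivity) hA
  refine le_of_mul_le_mul_right ?_ hb
  calc s ^ (m + 2) * b ^ m * b = s * (s ^ (m + 1) * b ^ (m + 1)) := by ring
    _ ≤ s * (F * a ^ (m + 1)) := mul_le_mul_of_nonneg_left hB hs.le
    _ = s * F * a ^ (m + 1) := by ring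
    _ = 2 ^ (m + 2) * (a * b) * a ^ (m + 1) := by rw [h2]
    _ = 2 ^ (m + 2) * a ^ (m + 2) * b := by ring

/-- The main inequality for `n = k + 4`. -/
theorem g_large (k : ℕ) :
    Real.sqrt Real.pi ^ (k + 4) * g (k + 4) ^ (k + 2) ≤ 2 ^ (k + 4) * g (k + 3) ^ (k + 4) := by
  have hs : 0 < Real.sqrt Real.pi := Real.sqrt_pos.mpr Real.pi_pos
  have hss : Real.sqrt Real.pi ^ 2 = Real.pi := Real.sq_sqrt Real.pi_pos.le
  have hm : g (k + 4) ^ 2 ≤ g (k + 3) * g (k + 5) := g_mid (k + 3)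
  have h5 : g (k + 5) = (((k + 3 : ℕ) : ℝ) / 2 + 1) * g (k + 3) := g_add_two (k + 3)
  have hd : 2 ^ (k + 4) * (g (k + 3) * g (k + 4)) = Real.sqrt Real.pi * ((k + 4).factorial : ℝ) :=
    g_dup (k + 3)
  have h1 : g (k + 4) ^ 2 ≤ (((k : ℝ) + 5) / 2) * g (k + 3) ^ 2 := by
    rw [h5] at hm
    have e : g (k + 3) * ((((k + 3 : ℕ) : ℝ) / 2 + 1) * g (k + 3))
        = (((k : ℝ) + 5) / 2) * g (k + 3) ^ 2 := by
      push_cast
      ring
    rw [e] at hm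
    exact hm
  have h3 : (Real.sqrt Real.pi ^ 2 * (((k : ℝ) + 5) / 2)) ^ (k + 2 + 1)
      ≤ ((k + 4).factorial : ℝ) ^ 2 := by
    rw [hss, ← mul_div_assoc]
    exact pow_le_fact_sq k
  exact core (k + 2) (Real.sqrt Real.pi) (g (k + 3)) (g (k + 4)) ((k + 4).factorial : ℝ)
    (((k : ℝ) + 5) / 2) hs (g_pos _) (g_pos _) (by positivity) h1 hd h3

theorem g_two : g 2 = 1 := by
  have h2 : g (0 + 2) = (((0 : ℕ) : ℝ) / 2 + 1) * g 0 := g_add_two 0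
  rw [g_zero] at h2
  simpa using h2

theorem g_three : g 3 = 3 * Real.sqrt Real.pi / 4 := by
  have h3 : g (1 + 2) = (((1 : ℕ) : ℝ) / 2 + 1) * g 1 := g_add_two 1
  rw [g_one] at h3
  have h3' : g 3 = (((1 : ℕ) : ℝ) / 2 + 1) * (Real.sqrt Real.pi / 2) := h3
  rw [h3']
  push_cast
  ring

/-- The case `n = 2` (equality). -/
theorem g_ineq_zero : Real.sqrt Real.pi ^ 2 * g 2 ^ 0 ≤ 2 ^ 2 * g 1 ^ 2 := by
  have hss : Real.sqrt Real.pi ^ 2 = Real.pi := Real.sq_sqrt Real.pi_pos.le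
  rw [g_one, pow_zero, mul_one, div_pow, hss]
  have hpi0 := Real.pi_pos
  linarith

/-- The case `n = 3`: `pi ^ 2 ≤ 32 / 3`. -/
theorem g_ineq_one : Real.sqrt Real.pi ^ 3 * g 3 ^ 1 ≤ 2 ^ 3 * g 2 ^ 3 := by
  have hss : Real.sqrt Real.pi ^ 2 = Real.pi := Real.sq_sqrt Real.pi_pos.le
  have hpi := Real.pi_lt_d2
  have hpi0 := Real.pi_pos
  rw [g_two, g_three]
  have e : Real.sqrt Real.pi ^ 3 * (3 * Real.sqrt Real.pi / 4) ^ 1
      = 3 * (Real.sqrt Real.pi ^ 2) ^ 2 / 4 := by ring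
  rw [e, hss]
  nlinarith

/-- The main inequality in terms of `g`, for `n = q + 2`. -/
theorem g_ineq (q : ℕ) :
    Real.sqrt Real.pi ^ (q + 2) * g (q + 2) ^ q ≤ 2 ^ (q + 2) * g (q + 1) ^ (q + 2) := by
  rcases Nat.lt_or_ge q 2 with h | h
  · interval_cases q
    · exact g_ineq_zero
    · exact g_ineq_one
  · obtain ⟨k, rfl⟩ : ∃ k, q = k + 2 := ⟨q - 2, by omega⟩
    exact g_large k

/-- Petty's constant is at most `2 ^ n`, in terms of the Gamma function. -/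
theorem kappa_real (n : ℕ) (hn : 2 ≤ n) :
    (Real.sqrt Real.pi ^ (n - 1) / Real.Gamma (((n - 1 : ℕ) : ℝ) / 2 + 1)) ^ n
      ≤ 2 ^ n * (Real.sqrt Real.pi ^ n / Real.Gamma ((n : ℝ) / 2 + 1)) ^ (n - 2) := by
  obtain ⟨q, rfl⟩ : ∃ q, n = q + 2 := ⟨n - 2, by omega⟩
  show (Real.sqrt Real.pi ^ (q + 1) / g (q + 1)) ^ (q + 2)
      ≤ 2 ^ (q + 2) * (Real.sqrt Real.pi ^ (q + 2) / g (q + 2)) ^ q
  have hs : 0 < Real.sqrt Real.pi := Real.sqrt_pos.mpr Real.pi_pos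
  have ha : 0 < g (q + 1) := g_pos _
  have hb : 0 < g (q + 2) := g_pos _
  have hG := g_ineq q
  rw [div_pow, div_pow, ← pow_mul, ← pow_mul, div_le_iff₀ (pow_pos ha _)]
  have e : 2 ^ (q + 2) * (Real.sqrt Real.pi ^ ((q + 2) * q) / g (q + 2) ^ q) * g (q + 1) ^ (q + 2)
      = 2 ^ (q + 2) * g (q + 1) ^ (q + 2) * Real.sqrt Real.pi ^ ((q + 2) * q) / g (q + 2) ^ q := by
    ring
  rw [e, le_div_iff₀ (pow_pos hb _)]
  calc Real.sqrt Real.pi ^ ((q + 1) * (q + 2)) * g (q + 2) ^ q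
      = Real.sqrt Real.pi ^ ((q + 2) * q) * (Real.sqrt Real.pi ^ (q + 2) * g (q + 2) ^ q) := by ring
    _ ≤ Real.sqrt Real.pi ^ ((q + 2) * q) * (2 ^ (q + 2) * g (q + 1) ^ (q + 2)) :=
        mul_le_mul_of_nonneg_left hG (by positivity)
    _ = 2 ^ (q + 2) * g (q + 1) ^ (q + 2) * Real.sqrt Real.pi ^ ((q + 2) * q) := by ring

/-- Petty's constant is at most `2 ^ n`: the volumes of the Euclidean unit balls satisfy
`vol (B ^ (n - 1)) ^ n ≤ 2 ^ n * vol (B ^ n) ^ (n - 2)`. -/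
theorem kappa_ball (n : ℕ) (hn : 2 ≤ n) :
    volume (Metric.ball (0 : EuclideanSpace ℝ (Fin (n - 1))) 1) ^ n
      ≤ 2 ^ n * volume (Metric.ball (0 : EuclideanSpace ℝ (Fin n)) 1) ^ (n - 2) := by
  have : Nonempty (Fin (n - 1)) := ⟨⟨0, by omega⟩⟩
  have : Nonempty (Fin n) := ⟨⟨0, by omega⟩⟩
  have h1 := EuclideanSpace.volume_ball (Fin (n - 1)) (0 : EuclideanSpace ℝ (Fin (n - 1))) 1
  have h2 := EuclideanSpace.volume_ball (Fin n) (0 : EuclideanSpace ℝ (Fin n)) 1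
  rw [h1, h2]
  simp only [ENNReal.ofReal_one, one_pow, one_mul, Fintype.card_fin]
  have hk := kappa_real n hn
  have hpos1 : 0 ≤ Real.sqrt Real.pi ^ (n - 1) / Real.Gamma (((n - 1 : ℕ) : ℝ) / 2 + 1) := by
    apply div_nonneg (by positivity)
    exact (Real.Gamma_pos_of_pos (by positivity)).le
  have hpos2 : 0 ≤ Real.sqrt Real.pi ^ n / Real.Gamma ((n : ℝ) / 2 + 1) := by
    apply div_nonneg (by positivity)
    exact (Real.Gamma_pos_of_pos (by positivity)).le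
  rw [← ENNReal.ofReal_pow hpos1, ← ENNReal.ofReal_pow hpos2]
  have h2' : (2 : ENNReal) ^ n = ENNReal.ofReal (2 ^ n) := by
    rw [ENNReal.ofReal_pow (by norm_num)]; simp
  rw [h2', ← ENNReal.ofReal_mul (by positivity)]
  exact ENNReal.ofReal_le_ofReal hk

end Vale.Agent.Lib.P237.H4
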