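import Mathlib
import Vale.Agent.Lib.P237.helper4.Kappa

/-!
# P237, piece KAPPA-LT: Petty's constant of the ball is strictly below `2 ^ n` for `n ≥ 3`

The strict form of `kappa_real`: with `kap m = sqrt(pi) ^ m / Gamma (m / 2 + 1)` we have
`kap (n - 1) ^ n < 2 ^ n * kap n ^ (n - 2)` for every `n ≥ 3` (for `n = 2` there is equality).
The proof is the one of `kappa_real`; the strictness comes from the numeric step
`(pi (N + 1) / 2) ^ (N - 1) < (N !) ^ 2` (`N ≥ 4`) and, for `n = 3`, from `pi ^ 2 < 32 / 3`.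
-/

namespace Vale.Agent.Lib.P237.H4

/-- `(pi (N + 1) / 2) ^ (N - 1) < (N !) ^ 2` for `N = k + 4`. -/
theorem pow_lt_fact_sq (k : ℕ) :
    (Real.pi * ((k : ℝ) + 5) / 2) ^ (k + 3) < ((k + 4).factorial : ℝ) ^ 2 := by
  have hpi := Real.pi_lt_d2
  have hpi0 := Real.pi_pos
  induction k with
  | zero =>
    have h1 : Real.pi * (((0 : ℕ) : ℝ) + 5) / 2 ≤ 7.875 := by
      push_cast
      linarith
    have h2 : (Real.pi * (((0 : ℕ) : ℝ) + 5) / 2) ^ 3 ≤ (7.875 : ℝ) ^ 3 :=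
      pow_le_pow_left₀ (by positivity) h1 3
    have h3 : (((0 + 4).factorial : ℕ) : ℝ) = 24 := by norm_num [Nat.factorial]
    rw [h3]
    refine lt_of_le_of_lt h2 ?_
    norm_num
  | succ k ih =>
    have hk6 : (0 : ℝ) < (k : ℝ) + 6 := by positivity
    have hF : (((k + 1 + 4).factorial : ℕ) : ℝ) = ((k : ℝ) + 5) * ((k + 4).factorial : ℝ) := by
      rw [show k + 1 + 4 = (k + 4) + 1 by ring, Nat.factorial_succ]
      push_cast
      ring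
    have hF0 : (0 : ℝ) ≤ ((k + 4).factorial : ℝ) ^ 2 := by positivity
    have hy : Real.pi * (((k + 1 : ℕ) : ℝ) + 5) / 2 = Real.pi * ((k : ℝ) + 6) / 2 := by
      push_cast
      ring
    rw [hy, hF, mul_pow]
    have hy0 : 0 < Real.pi * ((k : ℝ) + 6) / 2 := by positivity
    have hB : 1 + ((k + 3 : ℕ) : ℝ) * (-(1 / ((k : ℝ) + 6))) ≤ (1 + -(1 / ((k : ℝ) + 6))) ^ (k + 3) :=
      one_add_mul_le_pow (by
        have : 1 / ((k : ℝ) + 6) ≤ 1 := by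
          rw [div_le_one hk6]
          linarith
        linarith) (k + 3)
    have e : 1 + ((k + 3 : ℕ) : ℝ) * (-(1 / ((k : ℝ) + 6))) = 3 / ((k : ℝ) + 6) := by
      push_cast
      field_simp
      ring
    rw [e] at hB
    have hxy : Real.pi * ((k : ℝ) + 5) / 2
        = Real.pi * ((k : ℝ) + 6) / 2 * (1 + -(1 / ((k : ℝ) + 6))) := by
      field_simp
      ring
    have h3 : 3 * (Real.pi * ((k : ℝ) + 6) / 2) ^ (k + 3)
        ≤ ((k : ℝ) + 6) * (Real.pi * ((k : ℝ) + 5) / 2) ^ (k + 3) := by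
      rw [hxy, mul_pow]
      have hyk : 0 ≤ ((k : ℝ) + 6) * (Real.pi * ((k : ℝ) + 6) / 2) ^ (k + 3) := by positivity
      calc 3 * (Real.pi * ((k : ℝ) + 6) / 2) ^ (k + 3)
          = ((k : ℝ) + 6) * (Real.pi * ((k : ℝ) + 6) / 2) ^ (k + 3) * (3 / ((k : ℝ) + 6)) := by
            field_simp
        _ ≤ ((k : ℝ) + 6) * (Real.pi * ((k : ℝ) + 6) / 2) ^ (k + 3)
              * (1 + -(1 / ((k : ℝ) + 6))) ^ (k + 3) := mul_le_mul_of_nonneg_left hB hyk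
        _ = ((k : ℝ) + 6) * ((Real.pi * ((k : ℝ) + 6) / 2) ^ (k + 3)
              * (1 + -(1 / ((k : ℝ) + 6))) ^ (k + 3)) := by ring
    have h4 : Real.pi * ((k : ℝ) + 6) / 2 * ((k : ℝ) + 6) ≤ 3 * ((k : ℝ) + 5) ^ 2 := by
      nlinarith [mul_nonneg (sub_nonneg.mpr hpi.le) (sq_nonneg ((k : ℝ) + 6)),
        (Nat.cast_nonneg k : (0 : ℝ) ≤ k), sq_nonneg (k : ℝ)]
    have e2 : (Real.pi * ((k : ℝ) + 6) / 2) ^ (k + 1 + 3)
        = Real.pi * ((k : ℝ) + 6) / 2 * (Real.pi * ((k : ℝ) + 6) / 2) ^ (k + 3) := by ring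
    rw [e2]
    have h5 : 3 * (Real.pi * ((k : ℝ) + 6) / 2 * (Real.pi * ((k : ℝ) + 6) / 2) ^ (k + 3))
        < 3 * (((k : ℝ) + 5) ^ 2 * ((k + 4).factorial : ℝ) ^ 2) := by
      calc 3 * (Real.pi * ((k : ℝ) + 6) / 2 * (Real.pi * ((k : ℝ) + 6) / 2) ^ (k + 3))
          = Real.pi * ((k : ℝ) + 6) / 2 * (3 * (Real.pi * ((k : ℝ) + 6) / 2) ^ (k + 3)) := by ring
        _ ≤ Real.pi * ((k : ℝ) + 6) / 2
              * (((k : ℝ) + 6) * (Real.pi * ((k : ℝ) + 5) / 2) ^ (k + 3)) :=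
            mul_le_mul_of_nonneg_left h3 hy0.le
        _ < Real.pi * ((k : ℝ) + 6) / 2 * (((k : ℝ) + 6) * ((k + 4).factorial : ℝ) ^ 2) :=
            mul_lt_mul_of_pos_left (mul_lt_mul_of_pos_left ih hk6) hy0
        _ = Real.pi * ((k : ℝ) + 6) / 2 * ((k : ℝ) + 6) * ((k + 4).factorial : ℝ) ^ 2 := by ring
        _ ≤ 3 * ((k : ℝ) + 5) ^ 2 * ((k + 4).factorial : ℝ) ^ 2 :=
            mul_le_mul_of_nonneg_right h4 hF0
        _ = 3 * (((k : ℝ) + 5) ^ 2 * ((k + 4).factorial : ℝ) ^ 2) := by ring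
    linarith

/-- The algebraic core with a strict numeric inequality `h3`. -/
theorem core_lt (m : ℕ) (s a b F c : ℝ) (hs : 0 < s) (ha : 0 < a) (hb : 0 < b) (hF : 0 ≤ F)
    (h1 : b ^ 2 ≤ c * a ^ 2) (h2 : 2 ^ (m + 2) * (a * b) = s * F)
    (h3 : (s ^ 2 * c) ^ (m + 1) < F ^ 2) :
    s ^ (m + 2) * b ^ m < 2 ^ (m + 2) * a ^ (m + 2) := by
  have hA : (s ^ (m + 1) * b ^ (m + 1)) ^ 2 < (F * a ^ (m + 1)) ^ 2 := by
    calc (s ^ (m + 1) * b ^ (m + 1)) ^ 2 = (s ^ 2 * b ^ 2) ^ (m + 1) := by ring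
      _ ≤ (s ^ 2 * (c * a ^ 2)) ^ (m + 1) :=
          pow_le_pow_left₀ (by positivity) (mul_le_mul_of_nonneg_left h1 (by positivity)) _
      _ = (s ^ 2 * c) ^ (m + 1) * (a ^ (m + 1)) ^ 2 := by ring
      _ < F ^ 2 * (a ^ (m + 1)) ^ 2 := mul_lt_mul_of_pos_right h3 (by positivity)
      _ = (F * a ^ (m + 1)) ^ 2 := by ring
  have hB : s ^ (m + 1) * b ^ (m + 1) < F * a ^ (m + 1) :=
    lt_of_pow_lt_pow_left₀ 2 (by positivity) hA
  refine lt_of_mul_lt_mul_right ?_ hb.le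
  calc s ^ (m + 2) * b ^ m * b = s * (s ^ (m + 1) * b ^ (m + 1)) := by ring
    _ < s * (F * a ^ (m + 1)) := mul_lt_mul_of_pos_left hB hs
    _ = s * F * a ^ (m + 1) := by ring
    _ = 2 ^ (m + 2) * (a * b) * a ^ (m + 1) := by rw [h2]
    _ = 2 ^ (m + 2) * a ^ (m + 2) * b := by ring

/-- The strict main inequality for `n = k + 4`. -/
theorem g_large_lt (k : ℕ) :
    Real.sqrt Real.pi ^ (k + 4) * g (k + 4) ^ (k + 2) < 2 ^ (k + 4) * g (k + 3) ^ (k + 4) := by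
  have hs : 0 < Real.sqrt Real.pi := Real.sqrt_pos.mpr Real.pi_pos
  have hss : Real.sqrt Real.pi ^ 2 = Real.pi := Real.sq_sqrt Real.pi_pos.le
  have hm : g (k + 4) ^ 2 ≤ g (k + 3) * g (k + 5) := g_mid (k + 3)
  have h5 : g (k + 5) = (((k + 3 : ℕ) : ℝ) / 2 + 1) * g (k + 3) := g_add_two (k + 3)
  have hd : 2 ^ (k + 4) * (g (k + 3) * g (k + 4)) = Real.sqrt Real.pi * ((k + 4).factorial : ℝ) :=
    g_dup (k + 3)
  have h1 : g (k + 4) ^ 2 ≤ (((k : ℝ) + 5) / 2) * g (k + 3) ^ 2 := by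
    rw [h5] at hm
    have e : g (k + 3) * ((((k + 3 : ℕ) : ℝ) / 2 + 1) * g (k + 3))
        = (((k : ℝ) + 5) / 2) * g (k + 3) ^ 2 := by
      push_cast
      ring
    rw [e] at hm
    exact hm
  have h3 : (Real.sqrt Real.pi ^ 2 * (((k : ℝ) + 5) / 2)) ^ (k + 2 + 1)
      < ((k + 4).factorial : ℝ) ^ 2 := by
    rw [hss, ← mul_div_assoc]
    exact pow_lt_fact_sq k
  exact core_lt (k + 2) (Real.sqrt Real.pi) (g (k + 3)) (g (k + 4)) ((k + 4).factorial : ℝ)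
    (((k : ℝ) + 5) / 2) hs (g_pos _) (g_pos _) (by positivity) h1 hd h3

/-- The case `n = 3`, strictly: `pi ^ 2 < 32 / 3`. -/
theorem g_ineq_one_lt : Real.sqrt Real.pi ^ 3 * g 3 ^ 1 < 2 ^ 3 * g 2 ^ 3 := by
  have hss : Real.sqrt Real.pi ^ 2 = Real.pi := Real.sq_sqrt Real.pi_pos.le
  have hpi := Real.pi_lt_d2
  have hpi0 := Real.pi_pos
  rw [g_two, g_three]
  have e : Real.sqrt Real.pi ^ 3 * (3 * Real.sqrt Real.pi / 4) ^ 1
      = 3 * (Real.sqrt Real.pi ^ 2) ^ 2 / 4 := by ring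
  rw [e, hss]
  nlinarith

/-- The strict main inequality in terms of `g`, for `n = q + 2 ≥ 3`. -/
theorem g_ineq_lt (q : ℕ) (hq : 1 ≤ q) :
    Real.sqrt Real.pi ^ (q + 2) * g (q + 2) ^ q < 2 ^ (q + 2) * g (q + 1) ^ (q + 2) := by
  rcases Nat.lt_or_ge q 2 with h | h
  · obtain rfl : q = 1 := by omega
    exact g_ineq_one_lt
  · obtain ⟨k, rfl⟩ : ∃ k, q = k + 2 := ⟨q - 2, by omega⟩
    exact g_large_lt k

/-- Petty's constant of the ball is strictly below `2 ^ n` for `n ≥ 3`, in terms of the Gamma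
function. -/
theorem kappa_real_lt (n : ℕ) (hn : 3 ≤ n) :
    (Real.sqrt Real.pi ^ (n - 1) / Real.Gamma (((n - 1 : ℕ) : ℝ) / 2 + 1)) ^ n
      < 2 ^ n * (Real.sqrt Real.pi ^ n / Real.Gamma ((n : ℝ) / 2 + 1)) ^ (n - 2) := by
  obtain ⟨q, rfl⟩ : ∃ q, n = q + 2 := ⟨n - 2, by omega⟩
  show (Real.sqrt Real.pi ^ (q + 1) / g (q + 1)) ^ (q + 2)
      < 2 ^ (q + 2) * (Real.sqrt Real.pi ^ (q + 2) / g (q + 2)) ^ q
  have hs : 0 < Real.sqrt Real.pi := Real.sqrt_pos.mpr Real.pi_pos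
  have ha : 0 < g (q + 1) := g_pos _
  have hb : 0 < g (q + 2) := g_pos _
  have hG := g_ineq_lt q (by omega)
  rw [div_pow, div_pow, ← pow_mul, ← pow_mul, div_lt_iff₀ (pow_pos ha _)]
  have e : 2 ^ (q + 2) * (Real.sqrt Real.pi ^ ((q + 2) * q) / g (q + 2) ^ q) * g (q + 1) ^ (q + 2)
      = 2 ^ (q + 2) * g (q + 1) ^ (q + 2) * Real.sqrt Real.pi ^ ((q + 2) * q) / g (q + 2) ^ q := by
    ring
  rw [e, lt_div_iff₀ (pow_pos hb _)]
  calc Real.sqrt Real.pi ^ ((q + 1) * (q + 2)) * g (q + 2) ^ q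
      = Real.sqrt Real.pi ^ ((q + 2) * q) * (Real.sqrt Real.pi ^ (q + 2) * g (q + 2) ^ q) := by ring
    _ < Real.sqrt Real.pi ^ ((q + 2) * q) * (2 ^ (q + 2) * g (q + 1) ^ (q + 2)) :=
        mul_lt_mul_of_pos_left hG (by positivity)
    _ = 2 ^ (q + 2) * g (q + 1) ^ (q + 2) * Real.sqrt Real.pi ^ ((q + 2) * q) := by ring

end Vale.Agent.Lib.P237.H4
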