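import Mathlib
import Vale.Agent.Lib.P237.helper4.KappaLt

/-!
# P237: the strict inequality for the volumes of the unit balls

For `n ≥ 3` the volumes of the Euclidean unit balls satisfy
`vol (B ^ (n - 1)) ^ n < 2 ^ n * vol (B ^ n) ^ (n - 2)`: the ball form of `kappa_real_lt`.
-/

namespace Vale.Agent.Lib.P237.H4

open MeasureTheory

/-- Petty's constant of the ball is strictly below `2 ^ n` for `n ≥ 3`: the volumes of the
Euclidean unit balls satisfy `vol (B ^ (n - 1)) ^ n < 2 ^ n * vol (B ^ n) ^ (n - 2)`. -/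
theorem kappa_ball_lt (n : ℕ) (hn : 3 ≤ n) :
    volume (Metric.ball (0 : EuclideanSpace ℝ (Fin (n - 1))) 1) ^ n
      < 2 ^ n * volume (Metric.ball (0 : EuclideanSpace ℝ (Fin n)) 1) ^ (n - 2) := by
  have : Nonempty (Fin (n - 1)) := ⟨⟨0, by omega⟩⟩
  have : Nonempty (Fin n) := ⟨⟨0, by omega⟩⟩
  have h1 := EuclideanSpace.volume_ball (Fin (n - 1)) (0 : EuclideanSpace ℝ (Fin (n - 1))) 1
  have h2 := EuclideanSpace.volume_ball (Fin n) (0 : EuclideanSpace ℝ (Fin n)) 1
  rw [h1, h2]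
  simp only [ENNReal.ofReal_one, one_pow, one_mul, Fintype.card_fin]
  have hk := kappa_real_lt n hn
  have hpos1 : 0 ≤ Real.sqrt Real.pi ^ (n - 1) / Real.Gamma (((n - 1 : ℕ) : ℝ) / 2 + 1) := by
    apply div_nonneg (by positivity)
    exact (Real.Gamma_pos_of_pos (by positivity)).le
  have hpos2 : 0 < Real.sqrt Real.pi ^ n / Real.Gamma ((n : ℝ) / 2 + 1) := by
    apply div_pos (by positivity)
    exact Real.Gamma_pos_of_pos (by positivity)
  rw [← ENNReal.ofReal_pow hpos1, ← ENNReal.ofReal_pow hpos2.le]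
  have h2' : (2 : ENNReal) ^ n = ENNReal.ofReal (2 ^ n) := by
    rw [ENNReal.ofReal_pow (by norm_num)]; simp
  rw [h2', ← ENNReal.ofReal_mul (by positivity)]
  exact (ENNReal.ofReal_lt_ofReal_iff (by positivity)).mpr hk

end Vale.Agent.Lib.P237.H4
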